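import Vale.Agent.P181.RG.Defs
import Vale.Agent.P181.TL.Defs

set_option autoImplicit false

/-!
# P181, RV: a gap after row `m ≥ 3` (all rows counted), `b ≥ (1 + δ) a`: the literals

The lower bound is the one of RG (`MatRG`, `DesRG`, `HalfRG`), the upper bound is `TL.UpB`.
-/

namespace Vale.Agent.P181.RV

open Finset Vale.Agent.P181 Vale.Agent.P181.H280 Vale.Agent.P181.H463

/-- **[PARV]** the parameters (those of `ParRG`, with `a ≤ b` only). -/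
def ParV : Prop := ∃ a₀ : ℕ, ∀ (a b X m : ℕ), a₀ ≤ a → 2 ≤ X → X ^ 40 ≤ a → a ≤ b →
  b ≤ X * a → 3 ≤ m → m ≤ X ^ 2 →
  ∃ u D R f₀ F₀ T s N : ℕ, 1 ≤ u ∧ 1 ≤ s ∧ u ≤ (D + 1) ^ 2 ∧ u + ∑ r : Fin m, (f₀ - r) = b ∧
    N = u * (2 * D) + R ∧ N = f₀ * a + F₀ ∧ u * (2 * D + s + T) ≤ F₀ ∧
    m * f₀ ^ 2 + m * F₀ + a * m ^ 2 ≤ f₀ * a ∧ 4 * (u * T) ≤ (f₀ - m) * a ∧
    8 * (m * f₀) + 4 ≤ a ∧ u / s + 1 + m ≤ T ∧ T + m ≤ f₀ ∧ 2 * X * N ≤ a ^ 2 ∧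
    X * (b - u) ≤ a ∧ u ≤ b

/-- **[NUMV]** the final inequality; `δ = 1 / q`, `(q + 1) a ≤ q u`. -/
def NumV : Prop := ∀ q : ℕ, 1 ≤ q → ∃ a₀ : ℕ, ∀ (a b X m u t y : ℕ), a₀ ≤ a → 2 ≤ X →
  X ^ (100 * q) ≤ a → a ≤ b → b ≤ X * a → 3 ≤ m → m ≤ X ^ 2 → (q + 1) * a ≤ q * u → u ≤ b →
  t ≤ a * b → a ^ 2 ≤ 2 * X * y →
  ((a + b).choose a : ℝ) * 2 ^ (m * a) * (((t + u - 1).choose (u - 1) : ℝ) * (u.factorial : ℝ)) *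
    (u.factorial : ℝ) ^ 2 ≤ (1 + (y : ℝ) / u) ^ ((m - 2) * (u - 2 - a)) * (y : ℝ) ^ (2 * (u - m))

/-- **[TOPV]** the two top rows (Weyl's formula). -/
def TopV : Prop := ∀ (k m u y : ℕ) (η : Fin (k + 2) → ℕ), Antitone η → k + 2 ≤ u → 2 ≤ m →
  m ≤ u →
  (∀ i : Fin (k + 2), (i : ℕ) < 2 → y ≤ η i ∧ ∀ j : Fin (k + 2), m ≤ (j : ℕ) → y + η j ≤ η i) →
  y ^ (2 * (u - m)) * gt k (u - 2) (fun i => η i.succ.succ) ≤ u.factorial ^ 2 * gt (k + 2) u η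

/-- **[COREV]** from `MatRG`, `DesRG`, `HalfRG`, [PARV], [NUMV], [TOPV], `TL.UpB`,
`gt_growth_rows`. -/
def CorV : Prop := ∀ q : ℕ, 1 ≤ q → ∃ a₀ : ℕ, ∀ (a b X m k : ℕ) (lam : Fin (k + 2) → ℕ),
  a₀ ≤ a → Antitone lam → ∑ i, lam i = a * b → k + 2 ≤ a → 2 * q ≤ X → X ^ (200 * q) ≤ a →
  (q + 1) * a ≤ q * b → b ≤ X * a → 3 ≤ m → m ≤ k + 2 → m ≤ X ^ 2 →
  (∀ i : Fin (k + 2), (i : ℕ) < m → a ^ 2 ≤ X * lam i ∧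
    ∀ j : Fin (k + 2), m ≤ (j : ℕ) → a ^ 2 + X * lam j ≤ X * lam i) →
  plethMult a b (k + 2) lam ≤ plethMult b a (k + 2) lam

/-- **[FINV]** the polylogarithmic form. -/
def FinV : Prop := ∀ δ : ℝ, 0 < δ → ∀ C₀ c₀ : ℝ, 0 < C₀ → 0 ≤ c₀ → ∃ a₀ : ℕ,
  ∀ (a b m n : ℕ) (lam : Fin n → ℕ), a₀ ≤ a → Antitone lam → ∑ i, lam i = a * b →
  (1 + δ) * a ≤ b → 3 ≤ m → m ≤ n →
  (∀ i : Fin n, (i : ℕ) < m → (a : ℝ) ^ 2 ≤ C₀ * (1 + Real.log a) ^ c₀ * lam i ∧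
    ∀ j : Fin n, m ≤ (j : ℕ) →
      (a : ℝ) ^ 2 ≤ C₀ * (1 + Real.log a) ^ c₀ * ((lam i : ℝ) - lam j)) →
  plethMult a b n lam ≤ plethMult b a n lam

/-- **[BIGV]** at least `a ^ 2 / polylog` cells below row two. -/
def BigV : Prop := ∀ δ : ℝ, 0 < δ → ∀ C₀ c₀ : ℝ, 0 < C₀ → 0 ≤ c₀ → ∃ a₀ : ℕ,
  ∀ (a b n : ℕ) (lam : Fin (n + 2) → ℕ), a₀ ≤ a → (1 + δ) * a ≤ b →
  (a : ℝ) ^ 2 ≤ C₀ * (1 + Real.log a) ^ c₀ * ∑ i : Fin n, (lam i.succ.succ : ℝ) →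
  plethMult a b (n + 2) lam ≤ plethMult b a (n + 2) lam

end Vale.Agent.P181.RV
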